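import Mathlib

/-!
Averaging of Lipschitz maps along countably many segments: the limit has a continuous line
derivative in every direction, given by bounded operators.
-/

noncomputable section

namespace Vale.Agent.P124

open Filter Topology Set MeasureTheory
open scoped NNReal

variable {E F : Type*} [NormedAddCommGroup E] [NormedSpace ℝ E]
  [NormedAddCommGroup F] [NormedSpace ℝ F] [CompleteSpace F]

/-- The average along a segment. -/
def mav (u : E) (φ : E → F) (x : E) : F := ∫ s in (0 : ℝ)..1, φ (x + s • u)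

/-- Repeated averages. -/
def iter (u : ℕ → E) (φ : E → F) : ℕ → E → F
  | 0 => φ
  | n + 1 => mav (u n) (iter u φ n)

/-- A continuous line derivative in the direction `v`. -/
def LD (φ : E → F) (v : E) (D : E → F) : Prop :=
  Continuous D ∧ ∀ x, HasLineDerivAt ℝ φ (D x) x v

omit [CompleteSpace F] in
theorem intervalIntegrable_line {φ : E → F} (hφ : Continuous φ) (x u : E) (a b : ℝ) :
    IntervalIntegrable (fun s : ℝ => φ (x + s • u)) volume a b :=
  Continuous.intervalIntegrable (by fun_prop) a b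

theorem mav_sub {φ χ : E → F} (hφ : Continuous φ) (hχ : Continuous χ) (u x : E) :
    mav u (fun y => φ y - χ y) x = mav u φ x - mav u χ x :=
  intervalIntegral.integral_sub (intervalIntegrable_line hφ x u 0 1)
    (intervalIntegrable_line hχ x u 0 1)

theorem mav_lipschitz {K : ℝ≥0} {φ : E → F} (hφ : LipschitzWith K φ) (u : E) :
    LipschitzWith K (mav u φ) := by
  refine LipschitzWith.of_dist_le_mul fun x y => ?_
  rw [dist_eq_norm, dist_eq_norm, mav, mav,
    ← intervalIntegral.integral_sub (intervalIntegrable_line hφ.continuous x u 0 1)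
      (intervalIntegrable_line hφ.continuous y u 0 1)]
  refine (intervalIntegral.norm_integral_le_of_norm_le_const (C := K * ‖x - y‖)
    fun s _ => ?_).trans (by simp)
  refine (hφ.norm_sub_le _ _).trans (le_of_eq ?_)
  rw [add_sub_add_right_eq_sub]

theorem norm_mav_sub_const_le {φ : E → F} (hφ : Continuous φ) {a : F} {r : ℝ} (u x : E)
    (h : ∀ s ∈ Icc (0 : ℝ) 1, ‖φ (x + s • u) - a‖ ≤ r) : ‖mav u φ x - a‖ ≤ r := by
  have e : mav u φ x - a = ∫ s in (0 : ℝ)..1, (φ (x + s • u) - a) := by
    rw [intervalIntegral.integral_sub (intervalIntegrable_line hφ x u 0 1) intervalIntegrable_const,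
      intervalIntegral.integral_const]
    simp [mav]
  rw [e]
  refine (intervalIntegral.norm_integral_le_of_norm_le_const (C := r) fun s hs => ?_).trans
    (by simp)
  rw [uIoc_of_le zero_le_one] at hs
  exact h s ⟨hs.1.le, hs.2⟩

theorem norm_mav_sub_le {K : ℝ≥0} {φ : E → F} (hφ : LipschitzWith K φ) (u x : E) :
    ‖mav u φ x - φ x‖ ≤ K * ‖u‖ := by
  refine norm_mav_sub_const_le hφ.continuous u x fun s hs => (hφ.norm_sub_le _ _).trans ?_
  rw [add_sub_cancel_left, norm_smul, Real.norm_eq_abs, abs_of_nonneg hs.1]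
  exact mul_le_mul_of_nonneg_left (mul_le_of_le_one_left (norm_nonneg _) hs.2) K.coe_nonneg

theorem mav_continuous {φ : E → F} (hφ : Continuous φ) (u : E) : Continuous (mav u φ) :=
  intervalIntegral.continuous_parametric_intervalIntegral_of_continuous'
    (f := fun (x : E) (s : ℝ) => φ (x + s • u)) (by fun_prop) 0 1

theorem iter_lipschitz {K : ℝ≥0} {φ : E → F} (hφ : LipschitzWith K φ) (u : ℕ → E) :
    ∀ n, LipschitzWith K (iter u φ n)
  | 0 => hφ
  | n + 1 => mav_lipschitz (iter_lipschitz hφ u n) (u n)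

theorem iter_continuous {φ : E → F} (hφ : Continuous φ) (u : ℕ → E) :
    ∀ n, Continuous (iter u φ n)
  | 0 => hφ
  | n + 1 => mav_continuous (iter_continuous hφ u n) (u n)

theorem iter_sub_shift {φ : E → F} (hφ : Continuous φ) (u : ℕ → E) (v : E) :
    ∀ n x, iter u (fun y => φ (y + v) - φ y) n x = iter u φ n (x + v) - iter u φ n x := by
  intro n
  induction n with
  | zero => exact fun x => rfl
  | succ n ih =>
    intro x
    have h := iter_continuous hφ u n
    show mav (u n) (iter u (fun y => φ (y + v) - φ y) n) x = _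
    rw [show iter u (fun y => φ (y + v) - φ y) n = fun y => iter u φ n (y + v) - iter u φ n y
      from funext ih, mav_sub (φ := fun y => iter u φ n (y + v)) (by fun_prop) h]
    congr 1
    simp only [mav, iter]
    congr 1
    funext s
    rw [add_right_comm]

/-- The averages converge uniformly. -/
theorem exists_iter_limit {K : ℝ≥0} {φ : E → F} (hφ : LipschitzWith K φ) (u : ℕ → E) {c : ℝ}
    (hu : ∀ n, ‖u n‖ ≤ c / 2 / 2 ^ n) :
    ∃ G : E → F, LipschitzWith K G ∧ TendstoUniformly (iter u φ) G atTop ∧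
      ∀ x, ‖G x - φ x‖ ≤ K * c := by
  have hstep : ∀ x n, dist (iter u φ n x) (iter u φ (n + 1) x) ≤ K * c / 2 / 2 ^ n := by
    intro x n
    rw [dist_comm, dist_eq_norm]
    refine (norm_mav_sub_le (iter_lipschitz hφ u n) (u n) x).trans ?_
    have := mul_le_mul_of_nonneg_left (hu n) K.coe_nonneg
    refine this.trans (le_of_eq ?_)
    ring
  choose G hG using fun x => cauchySeq_tendsto_of_complete (cauchySeq_of_le_geometric_two (hstep x))
  refine ⟨G, LipschitzWith.of_dist_le_mul fun x y => ?_, ?_, fun x => ?_⟩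
  · exact le_of_tendsto ((hG x).dist (hG y))
      (Eventually.of_forall fun n => (iter_lipschitz hφ u n).dist_le_mul x y)
  · rw [Metric.tendstoUniformly_iff]
    intro ε hε
    have h0 : Tendsto (fun n : ℕ => (K : ℝ) * c / 2 ^ n) atTop (𝓝 0) :=
      tendsto_const_nhds.div_atTop (tendsto_pow_atTop_atTop_of_one_lt one_lt_two)
    filter_upwards [h0.eventually (eventually_lt_nhds hε)] with n hn x
    rw [dist_comm]
    exact lt_of_le_of_lt (dist_le_of_le_geometric_two_of_tendsto (hstep x) (hG x) n) hn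
  · rw [← dist_eq_norm, dist_comm]
    exact dist_le_of_le_geometric_two_of_tendsto₀ (hstep x) (hG x)

omit [CompleteSpace F] in
theorem LD.at_line {φ : E → F} {v : E} {D : E → F} (h : LD φ v D) (x : E) (t : ℝ) :
    HasDerivAt (fun s : ℝ => φ (x + s • v)) (D (x + t • v)) t := by
  have h1 : HasDerivAt (fun s : ℝ => φ (x + t • v + s • v)) (D (x + t • v)) (t - t) := by
    rw [sub_self]; exact h.2 (x + t • v)
  have h2 := HasDerivAt.comp_sub_const t t h1
  refine h2.congr_of_eventuallyEq (Eventually.of_forall fun s => ?_)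
  simp only [add_assoc, ← add_smul]
  rw [add_sub_cancel]

omit [CompleteSpace F] in
theorem LD.norm_le {K : ℝ≥0} {φ : E → F} (hφ : LipschitzWith K φ) {v : E} {D : E → F}
    (h : LD φ v D) (x : E) : ‖D x‖ ≤ K * ‖v‖ :=
  (h.2 x).le_of_lipschitz hφ

omit [CompleteSpace F] in
theorem LD.norm_sub_le {K : ℝ≥0} {φ : E → F} (hφ : LipschitzWith K φ) {v w : E} {D D' : E → F}
    (h : LD φ v D) (h' : LD φ w D') (x : E) : ‖D x - D' x‖ ≤ K * ‖v - w‖ := by
  refine HasDerivAt.le_of_lip' ((h.2 x).sub (h'.2 x)) (by positivity)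
    (Eventually.of_forall fun t => ?_)
  simp only [Pi.sub_apply, zero_smul, add_zero, sub_self, sub_zero]
  refine (hφ.norm_sub_le _ _).trans (le_of_eq ?_)
  rw [add_sub_add_left_eq_sub, ← smul_sub, norm_smul]
  ring

omit [CompleteSpace F] in
theorem LD.smul {φ : E → F} {v : E} {D : E → F} (h : LD φ v D) (c : ℝ) :
    LD φ (c • v) (fun x => c • D x) :=
  ⟨h.1.const_smul c, fun x => (h.2 x).smul c⟩

omit [CompleteSpace F] in
theorem LD.add {φ : E → F} {v w : E} {D D' : E → F} (h : LD φ v D) (h' : LD φ w D') :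
    LD φ (v + w) (fun x => D x + D' x) := by
  refine ⟨h.1.add h'.1, fun x => ?_⟩
  rw [hasLineDerivAt_iff_isLittleO_nhds_zero]
  have h1 := hasLineDerivAt_iff_isLittleO_nhds_zero.1 (h.2 x)
  have h2 : (fun t : ℝ => φ (x + t • v + t • w) - φ (x + t • v) - t • D' x) =o[𝓝 0]
      fun t => t := by
    rw [Asymptotics.isLittleO_iff]
    intro ε hε
    obtain ⟨δ, hδ, hδ'⟩ := Metric.continuousAt_iff.1 (h'.1.continuousAt (x := x)) ε hε
    have hc : ∀ᶠ t : ℝ in 𝓝 0, |t| * (‖v‖ + ‖w‖) < δ :=
      Tendsto.eventually_lt (by simpa using (continuous_abs.tendsto (0 : ℝ)).mul_const (‖v‖ + ‖w‖))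
        tendsto_const_nhds hδ
    filter_upwards [hc] with t ht
    have hd : ∀ s ∈ uIcc 0 t, HasDerivWithinAt (fun s : ℝ => φ (x + t • v + s • w) - s • D' x)
        (D' (x + t • v + s • w) - D' x) (uIcc 0 t) s := fun s _ => by
      have := (h'.at_line (x + t • v) s).sub ((hasDerivAt_id s).smul_const (D' x))
      simp only [id, one_smul] at this
      exact this.hasDerivWithinAt
    have hb : ∀ s ∈ uIcc 0 t, ‖D' (x + t • v + s • w) - D' x‖ ≤ ε := fun s hs => by
      have hst : |s| ≤ |t| := by simpa using abs_sub_left_of_mem_uIcc hs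
      rw [← dist_eq_norm]
      refine (hδ' ?_).le
      rw [dist_eq_norm, add_assoc, add_sub_cancel_left]
      refine lt_of_le_of_lt (norm_add_le _ _) (lt_of_le_of_lt ?_ ht)
      rw [norm_smul, norm_smul, Real.norm_eq_abs, Real.norm_eq_abs, mul_add]
      exact add_le_add le_rfl (mul_le_mul_of_nonneg_right hst (norm_nonneg _))
    have := (convex_uIcc (0 : ℝ) t).norm_image_sub_le_of_norm_hasDerivWithin_le hd hb
      left_mem_uIcc right_mem_uIcc
    simp only [zero_smul, add_zero, sub_zero] at this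
    rwa [sub_right_comm] at this
  refine (h1.add h2).congr' (Eventually.of_forall fun t => ?_) EventuallyEq.rfl
  simp only [smul_add, add_assoc]
  abel

/-- Limits of directions keep a continuous line derivative. -/
theorem LD.of_tendsto {K : ℝ≥0} {φ : E → F} (hφ : LipschitzWith K φ) {v : E} {w : ℕ → E}
    (hw : Tendsto w atTop (𝓝 v)) {D : ℕ → E → F} (h : ∀ n, LD φ (w n) (D n)) :
    ∃ G, LD φ v G := by
  have hcau : ∀ x, CauchySeq fun n => D n x := fun x => by
    rw [Metric.cauchySeq_iff]
    intro ε hε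
    obtain ⟨N, hN⟩ := Metric.cauchySeq_iff.1 hw.cauchySeq (ε / (K + 1)) (by positivity)
    refine ⟨N, fun m hm n hn => ?_⟩
    have h1 := hN m hm n hn
    rw [dist_eq_norm, lt_div_iff₀ (by positivity)] at h1
    rw [dist_eq_norm]
    refine lt_of_le_of_lt ((h m).norm_sub_le hφ (h n) x) ?_
    nlinarith [norm_nonneg (w m - w n), K.coe_nonneg]
  choose G hG using fun x => cauchySeq_tendsto_of_complete (hcau x)
  have hb : ∀ n x, ‖D n x - G x‖ ≤ K * ‖w n - v‖ := fun n x =>
    le_of_tendsto_of_tendsto' ((tendsto_const_nhds.sub (hG x)).norm)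
      ((tendsto_const_nhds.sub hw).norm.const_mul _) fun m => (h n).norm_sub_le hφ (h m) x
  have h0 : Tendsto (fun n => (K : ℝ) * ‖w n - v‖) atTop (𝓝 0) := by
    simpa using ((hw.sub_const v).norm.const_mul (K : ℝ))
  refine ⟨G, ?_, fun x => ?_⟩
  · refine TendstoUniformly.continuous (F := D) (p := atTop) ?_
      (Frequently.of_forall fun n => (h n).1)
    rw [Metric.tendstoUniformly_iff]
    intro ε hε
    filter_upwards [h0.eventually (eventually_lt_nhds hε)] with n hn x
    rw [dist_comm, dist_eq_norm]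
    exact lt_of_le_of_lt (hb n x) hn
  · rw [hasLineDerivAt_iff_isLittleO_nhds_zero, Asymptotics.isLittleO_iff]
    intro ε hε
    obtain ⟨n, hn⟩ := (h0.eventually (eventually_lt_nhds (show (0 : ℝ) < ε / 3 by positivity))).exists
    have h1 := Asymptotics.isLittleO_iff.1
      (hasLineDerivAt_iff_isLittleO_nhds_zero.1 ((h n).2 x)) (show (0 : ℝ) < ε / 3 by positivity)
    filter_upwards [h1] with t ht
    have e : φ (x + t • v) - φ x - t • G x = (φ (x + t • v) - φ (x + t • w n))
        + (φ (x + t • w n) - φ x - t • D n x) + t • (D n x - G x) := by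
      rw [smul_sub]; abel
    rw [e]
    refine (norm_add₃_le).trans ?_
    have a1 : ‖φ (x + t • v) - φ (x + t • w n)‖ ≤ ε / 3 * ‖t‖ := by
      refine (hφ.norm_sub_le _ _).trans ?_
      rw [add_sub_add_left_eq_sub, ← smul_sub, norm_smul, norm_sub_rev]
      calc (K : ℝ) * (‖t‖ * ‖w n - v‖) = (K * ‖w n - v‖) * ‖t‖ := by ring
        _ ≤ ε / 3 * ‖t‖ := mul_le_mul_of_nonneg_right hn.le (norm_nonneg t)
    have a2 : ‖t • (D n x - G x)‖ ≤ ε / 3 * ‖t‖ := by
      rw [norm_smul, mul_comm]
      exact mul_le_mul_of_nonneg_right ((hb n x).trans hn.le) (norm_nonneg t)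
    linarith

/-- An average has a line derivative along its segment. -/
theorem LD.mav_self {φ : E → F} (hφ : Continuous φ) (u : E) :
    LD (mav u φ) u (fun x => φ (x + u) - φ x) := by
  refine ⟨by fun_prop, fun x => ?_⟩
  set ψ : ℝ → F := fun s => φ (x + s • u) with hψ
  have hc : Continuous ψ := by fun_prop
  have hF : ∀ t, HasDerivAt (fun t => ∫ s in (0 : ℝ)..t, ψ s) (ψ t) t := fun t =>
    intervalIntegral.integral_hasDerivAt_right (hc.intervalIntegrable 0 t)
      (hc.stronglyMeasurableAtFilter _ _) hc.continuousAt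
  have h1 : HasDerivAt (fun t : ℝ => (∫ s in (0 : ℝ)..(t + 1), ψ s) - ∫ s in (0 : ℝ)..t, ψ s)
      (ψ (0 + 1) - ψ 0) 0 := (HasDerivAt.comp_add_const 0 1 (hF (0 + 1))).sub (hF 0)
  have e : ψ (0 + 1) - ψ 0 = φ (x + u) - φ x := by simp [hψ]
  show HasLineDerivAt ℝ (mav u φ) (φ (x + u) - φ x) x u
  rw [← e]
  refine h1.congr_of_eventuallyEq (Eventually.of_forall fun t => ?_)
  show mav u φ (x + t • u) = (∫ s in (0 : ℝ)..(t + 1), ψ s) - ∫ s in (0 : ℝ)..t, ψ s
  rw [intervalIntegral.integral_interval_sub_left (hc.intervalIntegrable _ _)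
    (hc.intervalIntegrable _ _), mav]
  have := intervalIntegral.integral_comp_add_left ψ t (a := 0) (b := 1)
  rw [add_zero] at this
  rw [← this]
  congr 1
  funext s
  simp only [hψ, add_smul, add_assoc]

/-- Averaging keeps line derivatives. -/
theorem LD.mav_of {K : ℝ≥0} {φ : E → F} (hφ : LipschitzWith K φ) {v : E} {D : E → F}
    (h : LD φ v D) (u : E) : LD (mav u φ) v (mav u D) := by
  refine ⟨mav_continuous h.1 u, fun x => ?_⟩
  have hc := hφ.continuous
  have hD := h.1
  have := (intervalIntegral.hasDerivAt_integral_of_dominated_loc_of_deriv_le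
    (μ := volume) (a := 0) (b := 1) (F := fun t s => φ (x + t • v + s • u))
    (F' := fun t s => D (x + t • v + s • u)) (x₀ := (0 : ℝ)) (bound := fun _ => (K : ℝ) * ‖v‖)
    (s := Metric.ball 0 1) (Metric.ball_mem_nhds _ one_pos)
    (Eventually.of_forall fun t => Continuous.aestronglyMeasurable (by fun_prop))
    (Continuous.intervalIntegrable (by fun_prop) _ _)
    (Continuous.aestronglyMeasurable (by fun_prop))
    (Eventually.of_forall fun s _ t _ => h.norm_le hφ _)
    intervalIntegrable_const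
    (Eventually.of_forall fun s _ t _ => ?_)).2
  · simp only [zero_smul, add_zero] at this
    exact this
  · refine (h.at_line (x + s • u) t).congr_deriv ?_ |>.congr_of_eventuallyEq
      (Eventually.of_forall fun r => ?_)
    · rw [add_right_comm]
    · show φ (x + r • v + s • u) = φ (x + s • u + r • v)
      rw [add_right_comm]

theorem LD.iter_of {K : ℝ≥0} {φ : E → F} (hφ : LipschitzWith K φ) {v : E} {D : E → F}
    (h : LD φ v D) (u : ℕ → E) : ∀ n, LD (iter u φ n) v (iter u D n)
  | 0 => h
  | n + 1 => (LD.iter_of hφ h u n).mav_of (iter_lipschitz hφ u n) (u n)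

omit [CompleteSpace F] in
theorem LD.of_uniform {φ : ℕ → E → F} {D : ℕ → E → F} {v : E} {G H : E → F}
    (h : ∀ n, LD (φ n) v (D n)) (hG : ∀ x, Tendsto (fun n => φ n x) atTop (𝓝 (G x)))
    (hH : TendstoUniformly D H atTop) : LD G v H := by
  refine ⟨hH.continuous (Frequently.of_forall fun n => (h n).1), fun x => ?_⟩
  have := hasDerivAt_of_tendstoUniformly (f := fun n (t : ℝ) => φ n (x + t • v))
    (g := fun t : ℝ => G (x + t • v)) (hH.comp fun t : ℝ => x + t • v)
    (Eventually.of_forall fun n t => (h n).at_line x t) (fun t => hG _) 0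
  simpa [HasLineDerivAt] using this

/-- A Lipschitz map on a separable space is uniformly near one with continuous line derivatives. -/
theorem exists_smooth [TopologicalSpace.SeparableSpace E] {K : ℝ≥0} {φ : E → F}
    (hφ : LipschitzWith K φ) {η : ℝ} (hη : 0 < η) :
    ∃ G : E → F, LipschitzWith K G ∧ (∀ x, ‖G x - φ x‖ ≤ η) ∧
      ∃ B : E → (E →L[ℝ] F), (∀ x, ‖B x‖ ≤ K) ∧ ∀ v, LD G v (fun x => B x v) := by
  obtain ⟨d, hd⟩ := TopologicalSpace.exists_dense_seq E
  set c : ℝ := η / (K + 1) with hc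
  have hc0 : 0 < c := by positivity
  set a : ℕ → ℝ := fun n => c / 2 / 2 ^ n / (‖d n‖ + 1) with ha
  have ha0 : ∀ n, 0 < a n := fun n => by positivity
  set u : ℕ → E := fun n => a n • d n with hu
  have hu' : ∀ n, ‖u n‖ ≤ c / 2 / 2 ^ n := fun n => by
    rw [hu, norm_smul, Real.norm_eq_abs, abs_of_pos (ha0 n), ha, div_mul_eq_mul_div,
      div_le_iff₀ (by positivity)]
    exact mul_le_mul_of_nonneg_left (le_add_of_nonneg_right zero_le_one) (by positivity)
  obtain ⟨G, hGL, hGu, hGb⟩ := exists_iter_limit hφ u hu'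
  have hGt : ∀ x, Tendsto (fun n => iter u φ n x) atTop (𝓝 (G x)) := hGu.tendsto_at
  have hdir : ∀ k, ∃ D, LD G (u k) D := by
    intro k
    have hP := iter_lipschitz hφ u k
    have hD0 : LipschitzWith (K + K) (fun x => iter u φ k (x + u k) - iter u φ k x) := by
      refine LipschitzWith.sub ?_ hP
      refine LipschitzWith.of_dist_le_mul fun x y => (hP.dist_le_mul _ _).trans (le_of_eq ?_)
      rw [dist_add_right]
    set u' : ℕ → E := fun j => u (k + 1 + j) with hu'd
    have hshift : ∀ j, iter u φ (k + 1 + j) = iter u' (iter u φ (k + 1)) j := by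
      intro j
      induction j with
      | zero => rfl
      | succ j ih => show mav (u (k + 1 + j)) (iter u φ (k + 1 + j)) = _; rw [ih]; rfl
    obtain ⟨H, -, hH, -⟩ := exists_iter_limit hD0 u' (c := c) fun j =>
      (hu' _).trans (div_le_div_of_nonneg_left (by positivity) (by positivity)
        (pow_le_pow_right₀ one_le_two (by omega)))
    refine ⟨H, LD.of_uniform (φ := fun j => iter u φ (k + 1 + j)) (fun j => ?_) (fun x => ?_) hH⟩
    · rw [hshift]
      exact (LD.mav_self hP.continuous (u k)).iter_of (iter_lipschitz hφ u (k + 1)) u' j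
    · simpa [Function.comp_def, add_comm] using (hGt x).comp (tendsto_add_atTop_nat (k + 1))
  have hall : ∀ v, ∃ D, LD G v D := by
    intro v
    obtain ⟨w, hw, hwv⟩ := mem_closure_iff_seq_limit.1 (hd v)
    have : ∀ n, ∃ D, LD G (w n) D := fun n => by
      obtain ⟨k, hk⟩ := hw n
      obtain ⟨D, hD⟩ := hdir k
      have := hD.smul (a k)⁻¹
      rw [hu, inv_smul_smul₀ (ha0 k).ne', hk] at this
      exact ⟨_, this⟩
    choose D hD using this
    exact LD.of_tendsto hGL hwv hD
  choose D hD using hall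
  let B : E → (E →L[ℝ] F) := fun x => LinearMap.mkContinuous
    { toFun := fun v => D v x
      map_add' := fun v w => ((hD (v + w)).2 x).unique (((hD v).add (hD w)).2 x)
      map_smul' := fun r v => ((hD (r • v)).2 x).unique (((hD v).smul r).2 x) }
    K fun v => (hD v).norm_le hGL x
  refine ⟨G, hGL, fun x => (hGb x).trans ?_, B,
    fun x => LinearMap.mkContinuous_norm_le _ K.coe_nonneg _, hD⟩
  rw [hc, mul_div_assoc', div_le_iff₀ (by positivity)]
  nlinarith

end Vale.Agent.P124
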