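import Mathlib

/-!
The approximation property.
-/

noncomputable section

namespace Vale.Agent.P124

open Set

/-- The approximation property: on every compact set the identity is uniformly a limit of bounded
operators of finite rank. -/
def HasAP (X : Type*) [NormedAddCommGroup X] [NormedSpace ℝ X] : Prop :=
  ∀ K : Set X, IsCompact K → ∀ ε : ℝ, 0 < ε →
    ∃ T : X →L[ℝ] X, FiniteDimensional ℝ T.range ∧ ∀ v ∈ K, ‖T v - v‖ ≤ ε

end Vale.Agent.P124
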