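import Vale.Agent.P124.Averaging
import Vale.Agent.P124.Defs

/-!
If the identity of `X` factors through `Y` by Lipschitz maps, it is a pointwise limit of convex
combinations of uniformly bounded linear factorisations through `Y`; so the approximation property
passes from `Y` to `X`.
-/

noncomputable section

namespace Vale.Agent.P124

open Filter Topology Set MeasureTheory
open scoped NNReal

variable {X Y : Type*} [NormedAddCommGroup X] [NormedSpace ℝ X] [CompleteSpace X]
  [NormedAddCommGroup Y] [NormedSpace ℝ Y] [CompleteSpace Y]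

/-- The products of two operators of norm at most `L`. -/
def prods (Y : Type*) [NormedAddCommGroup Y] [NormedSpace ℝ Y] (X : Type*) [NormedAddCommGroup X]
    [NormedSpace ℝ X] (L : ℝ≥0) : Set (X →L[ℝ] X) :=
  {S | ∃ (A : Y →L[ℝ] X) (B : X →L[ℝ] Y), ‖A‖ ≤ L ∧ ‖B‖ ≤ L ∧ S = A.comp B}

/-- The line derivatives of smoothed maps compose. -/
theorem LD.comp_of {K : ℝ≥0} {f : X → Y} {g : Y → X} {v : X} {w : X → Y}
    (hg : LipschitzWith K g) {A : Y → (Y →L[ℝ] X)} (hA : ∀ y, ‖A y‖ ≤ K)
    (hAd : ∀ z, LD g z (fun y => A y z)) (hfc : Continuous f) (hf : LD f v w) :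
    LD (fun x => g (f x)) v (fun x => A (f x) (w x)) := by
  have hjoint : Continuous fun p : Y × Y => A p.1 p.2 :=
    continuous_prod_of_continuous_lipschitzWith' _ K
      (fun y => (A y).lipschitz.weaken (hA y)) fun z => (hAd z).1
  refine ⟨hjoint.comp (hfc.prodMk hf.1), fun x => ?_⟩
  rw [hasLineDerivAt_iff_isLittleO_nhds_zero]
  have h1 := hasLineDerivAt_iff_isLittleO_nhds_zero.1 (hf.2 x)
  have h2 := hasLineDerivAt_iff_isLittleO_nhds_zero.1 ((hAd (w x)).2 (f x))
  have h3 : (fun t : ℝ => g (f (x + t • v)) - g (f x + t • w x)) =o[𝓝 0] fun t => t := by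
    refine Asymptotics.IsBigO.trans_isLittleO (Asymptotics.IsBigO.of_bound (K : ℝ)
      (Eventually.of_forall fun t => ?_)) h1
    refine (hg.norm_sub_le _ _).trans (le_of_eq ?_)
    rw [sub_sub]
  refine (h3.add h2).congr' (Eventually.of_forall fun t => ?_) EventuallyEq.rfl
  abel

omit [CompleteSpace X] in
theorem iter_pi {m : ℕ} {φ : X → Fin m → X} [CompleteSpace X] (hφ : Continuous φ) (u : ℕ → X)
    (i : Fin m) : ∀ n x, iter u φ n x i = iter u (fun y => φ y i) n x := by
  intro n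
  induction n with
  | zero => exact fun x => rfl
  | succ n ih =>
    intro x
    have hc := intervalIntegrable_line (iter_continuous hφ u n) x (u n) 0 1
    have := (ContinuousLinearMap.proj (R := ℝ) (φ := fun _ : Fin m => X) i).intervalIntegral_comp_comm hc
    simp only [ContinuousLinearMap.proj_apply] at this
    show mav (u n) (iter u φ n) x i = mav (u n) (iter u (fun y => φ y i) n) x
    rw [mav, ← this, mav]
    exact intervalIntegral.integral_congr fun s _ => ih _

theorem iter_mem {F : Type*} [NormedAddCommGroup F] [NormedSpace ℝ F] [CompleteSpace F] {C : Set F}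
    (hC : Convex ℝ C) (hC' : IsClosed C) {φ : X → F} (hφ : Continuous φ) (u : ℕ → X)
    (h : ∀ x, φ x ∈ C) : ∀ n x, iter u φ n x ∈ C
  | 0 => h
  | n + 1 => fun x => by
    have hc : Continuous fun s : ℝ => iter u φ n (x + s • u n) :=
      (iter_continuous hφ u n).comp (by fun_prop)
    haveI : IsProbabilityMeasure (volume.restrict (Ioc (0 : ℝ) 1)) := ⟨by simp⟩
    show mav (u n) (iter u φ n) x ∈ C
    rw [mav, intervalIntegral.integral_of_le zero_le_one]
    exact hC.integral_mem hC' (Eventually.of_forall fun s => iter_mem hC hC' hφ u h n _)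
      (hc.integrableOn_Ioc)

theorem norm_iter_sub_const_le {F : Type*} [NormedAddCommGroup F] [NormedSpace ℝ F]
    [CompleteSpace F] {φ : X → F} (hφ : Continuous φ) (u : ℕ → X) {a : F} {r : ℝ} {k : ℕ}
    (h : ∀ x, ‖iter u φ k x - a‖ ≤ r) : ∀ n, k ≤ n → ∀ x, ‖iter u φ n x - a‖ ≤ r :=
  Nat.le_induction h fun n _ ih x =>
    norm_mav_sub_const_le (iter_continuous hφ u n) (u n) x fun s _ => ih _

/-- The identity is approximated by averages of products. -/
theorem exists_average [TopologicalSpace.SeparableSpace X] [TopologicalSpace.SeparableSpace Y]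
    {L : ℝ≥0} {f : X → Y} {g : Y → X} (hf : LipschitzWith L f) (hg : LipschitzWith L g)
    (hgf : ∀ x, g (f x) = x) (s : Finset X) {ε : ℝ} (hε : 0 < ε) :
    ∃ S ∈ convexHull ℝ (prods Y X L), ∀ v ∈ s, ‖S v - v‖ ≤ ε := by
  set η : ℝ := ε / (4 * ((L : ℝ) + 1)) with hη
  have hη0 : 0 < η := by positivity
  obtain ⟨f1, hf1, hf1b, B, hB, hBd⟩ := exists_smooth hf hη0
  obtain ⟨g1, hg1, hg1b, A, hA, hAd⟩ := exists_smooth hg hη0
  set h : X → X := fun x => g1 (f1 x) with hh
  have hclose : ∀ x, ‖h x - x‖ ≤ ε / 4 := fun x => by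
    calc ‖h x - x‖ = ‖(g1 (f1 x) - g (f1 x)) + (g (f1 x) - g (f x))‖ := by
          rw [sub_add_sub_cancel, hgf]
      _ ≤ η + L * η := (norm_add_le _ _).trans (add_le_add (hg1b _)
          ((hg.norm_sub_le _ _).trans (mul_le_mul_of_nonneg_left (hf1b x) L.coe_nonneg)))
      _ = ε / 4 := by rw [hη]; field_simp; ring
  have hhL : LipschitzWith (L * L) h := hg1.comp hf1
  set m := s.card
  set v : Fin m → X := fun i => (s.equivFin.symm i : X) with hv
  set u : ℕ → X := fun n => if hn : n < m then v ⟨n, hn⟩ else 0 with hu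
  have hD : ∀ z, LD h z (fun x => A (f1 x) (B x z)) := fun z =>
    LD.comp_of hg1 hA hAd hf1.continuous (hBd z)
  set Φ : X → Fin m → X := fun x i => A (f1 x) (B x (v i)) with hΦ
  have hΦc : Continuous Φ := continuous_pi fun i => (hD (v i)).1
  set ev : (X →L[ℝ] X) → Fin m → X := fun S i => S (v i) with hev
  set C := closure (ev '' convexHull ℝ (prods Y X L)) with hC
  have hCc : Convex ℝ C := by
    refine Convex.closure ?_
    exact (convex_convexHull ℝ _).linear_image
      { toFun := ev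
        map_add' := fun a b => rfl
        map_smul' := fun c a => rfl }
  have hmem : iter u Φ m 0 ∈ C := iter_mem hCc isClosed_closure hΦc u (fun x => subset_closure
    ⟨(A (f1 x)).comp (B x), subset_convexHull ℝ _ ⟨_, _, hA _, hB _, rfl⟩, rfl⟩) m 0
  have hnear : ∀ i, ‖iter u Φ m 0 i - v i‖ ≤ ε / 2 := by
    intro i
    rw [iter_pi hΦc u i]
    have hDi := hD (v i)
    refine norm_iter_sub_const_le (a := v i) hDi.1 u (k := (i : ℕ) + 1) (fun x => ?_) m
      i.isLt 0
    have hui : u i = v i := by simp only [hu, i.isLt, dif_pos]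
    have hP := hDi.iter_of hhL u i
    have hint : iter u (fun x => A (f1 x) (B x (v i))) ((i : ℕ) + 1) x
        = iter u h i (x + v i) - iter u h i x := by
      show mav (u i) _ x = _
      rw [mav, hui, intervalIntegral.integral_eq_sub_of_hasDerivAt (fun t _ => hP.at_line x t)
        (intervalIntegrable_line hP.1 x (v i) 0 1)]
      simp
    rw [show (fun y => Φ y i) = fun x => A (f1 x) (B x (v i)) from rfl, hint,
      ← iter_sub_shift hhL.continuous u (v i)]
    refine norm_iter_sub_const_le (k := 0) (Continuous.sub (hhL.continuous.comp (by fun_prop))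
      hhL.continuous) u (fun y => ?_) i (Nat.zero_le _) x
    calc ‖h (y + v i) - h y - v i‖ = ‖(h (y + v i) - (y + v i)) - (h y - y)‖ := by
          congr 1; abel
      _ ≤ ε / 4 + ε / 4 := (norm_sub_le _ _).trans (add_le_add (hclose _) (hclose _))
      _ = ε / 2 := by ring
  obtain ⟨w, ⟨S, hS, rfl⟩, hw⟩ :=
    Metric.mem_closure_iff.1 hmem (ε / 2) (by positivity)
  refine ⟨S, hS, fun z hz => ?_⟩
  set i := s.equivFin ⟨z, hz⟩ with hi
  have hvi : v i = z := by simp only [hv, hi, Equiv.symm_apply_apply]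
  have h1 : ‖iter u Φ m 0 i - S (v i)‖ ≤ ε / 2 := by
    rw [← dist_eq_norm]
    exact (dist_le_pi_dist _ _ i).trans hw.le
  rw [← hvi]
  calc ‖S (v i) - v i‖ = ‖(iter u Φ m 0 i - v i) - (iter u Φ m 0 i - S (v i))‖ := by congr 1; abel
    _ ≤ ε / 2 + ε / 2 := (norm_sub_le _ _).trans (add_le_add (hnear i) h1)
    _ = ε := by ring

/-- The approximation property passes to Lipschitz retracts. -/
theorem HasAP.of_lipschitz [TopologicalSpace.SeparableSpace X] [TopologicalSpace.SeparableSpace Y]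
    {L : ℝ≥0} {f : X → Y} {g : Y → X} (hf : LipschitzWith L f) (hg : LipschitzWith L g)
    (hgf : ∀ x, g (f x) = x) (hY : HasAP Y) : HasAP X := by
  intro K hK ε hε
  set P : Set (X →L[ℝ] X) := {S | ‖S‖ ≤ L * L ∧ ∀ δ : ℝ, 0 < δ →
    ∃ T : X →L[ℝ] X, FiniteDimensional ℝ T.range ∧ ∀ v ∈ K, ‖T v - S v‖ ≤ δ}
    with hP
  have hPc : Convex ℝ P := by
    intro S1 h1 S2 h2 a b ha hb hab
    refine ⟨?_, fun δ hδ => ?_⟩
    · refine (norm_add_le _ _).trans ?_
      rw [norm_smul, norm_smul, Real.norm_eq_abs, Real.norm_eq_abs, abs_of_nonneg ha,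
        abs_of_nonneg hb]
      calc a * ‖S1‖ + b * ‖S2‖ ≤ a * (L * L) + b * (L * L) := by
            exact add_le_add (mul_le_mul_of_nonneg_left h1.1 ha) (mul_le_mul_of_nonneg_left h2.1 hb)
        _ = L * L := by rw [← add_mul, hab, one_mul]
    obtain ⟨T1, hT1, hd1⟩ := h1.2 δ hδ
    obtain ⟨T2, hT2, hd2⟩ := h2.2 δ hδ
    refine ⟨a • T1 + b • T2, ?_, fun v hv => ?_⟩
    · refine Submodule.finiteDimensional_of_le
        (S₂ := T1.range ⊔ T2.range) ?_
      rintro _ ⟨v, rfl⟩
      exact Submodule.add_mem_sup (Submodule.smul_mem _ a ⟨v, rfl⟩) (Submodule.smul_mem _ b ⟨v, rfl⟩)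
    · simp only [_root_.add_apply, _root_.smul_apply]
      rw [show a • T1 v + b • T2 v - (a • S1 v + b • S2 v)
        = a • (T1 v - S1 v) + b • (T2 v - S2 v) by rw [smul_sub, smul_sub]; abel]
      refine (norm_add_le _ _).trans ?_
      rw [norm_smul, norm_smul, Real.norm_eq_abs, Real.norm_eq_abs, abs_of_nonneg ha,
        abs_of_nonneg hb]
      calc a * ‖T1 v - S1 v‖ + b * ‖T2 v - S2 v‖ ≤ a * δ + b * δ :=
            add_le_add (mul_le_mul_of_nonneg_left (hd1 v hv) ha)
              (mul_le_mul_of_nonneg_left (hd2 v hv) hb)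
        _ = δ := by rw [← add_mul, hab, one_mul]
  have hprod : prods Y X L ⊆ P := by
    rintro _ ⟨A, B, hA, hB, rfl⟩
    refine ⟨(A.opNorm_comp_le B).trans (mul_le_mul hA hB (norm_nonneg _) L.coe_nonneg), fun δ hδ => ?_⟩
    obtain ⟨F, hF, hFd⟩ := hY (B '' K) (hK.image B.continuous) (δ / (L + 1)) (by positivity)
    refine ⟨A.comp (F.comp B), ?_, fun v hv => ?_⟩
    · refine Submodule.finiteDimensional_of_le
        (S₂ := F.range.map (A : Y →ₗ[ℝ] X)) ?_
      rintro _ ⟨v, rfl⟩
      exact Submodule.mem_map_of_mem ⟨B v, rfl⟩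
    · simp only [ContinuousLinearMap.comp_apply, ← map_sub]
      refine (A.le_opNorm _).trans ?_
      refine (mul_le_mul hA (hFd _ ⟨v, hv, rfl⟩) (norm_nonneg _) L.coe_nonneg).trans ?_
      rw [mul_div_assoc', div_le_iff₀ (by positivity)]
      nlinarith [L.coe_nonneg]
  set ρ : ℝ := ε / 2 / (L * L + 2) with hρ
  have hρ0 : 0 < ρ := by positivity
  obtain ⟨t, -, htf, hcov⟩ := hK.finite_cover_balls hρ0
  obtain ⟨S, hS, hSt⟩ := exists_average hf hg hgf htf.toFinset hρ0
  obtain ⟨hSn, hSa⟩ := convexHull_min hprod hPc hS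
  obtain ⟨T, hT, hTd⟩ := hSa (ε / 2) (by positivity)
  refine ⟨T, hT, fun v hv => ?_⟩
  obtain ⟨z, hz, hvz⟩ := mem_iUnion₂.1 (hcov hv)
  rw [Metric.mem_ball, dist_eq_norm] at hvz
  have h1 := hSt z (htf.mem_toFinset.2 hz)
  have h2 : ‖S (v - z)‖ ≤ L * L * ρ := (S.le_opNorm _).trans
    (mul_le_mul hSn hvz.le (norm_nonneg _) (by positivity))
  calc ‖T v - v‖ = ‖(T v - S v) + S (v - z) + ((S z - z) - (v - z))‖ := by
        congr 1; rw [map_sub]; abel
    _ ≤ ε / 2 + L * L * ρ + (ρ + ρ) := norm_add₃_le.trans (add_le_add (add_le_add (hTd v hv) h2)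
        ((norm_sub_le _ _).trans (add_le_add h1 hvz.le)))
    _ = ε := by rw [hρ]; field_simp; ring

end Vale.Agent.P124
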